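import Vale.Agent.P014T.Dr.Unr

/-! # P014T, block DER: row SHP, from the raw to the exact Euler system (helper7) -/

set_option linter.all false

open NumberField Matrix

noncomputable section

namespace Vale.Agent.P014T.Dr

open Vale.Agent.P022 (Qb GQ)
open Vale.Agent.P022E.GW (Ov Fb)
open Vale.Agent.P004F (M2)

section gen

variable {A : Type} [CommRing A] {a : GQ →* M2 A} {K H H' : Subgroup GQ} {u u' y : GQ → Fin 2 → A}
  {g h : GQ} {T : Finset GQ}

/-- coboundaries on `K` -/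
def Bd (K : Subgroup GQ) (a : GQ → M2 A) : Submodule A (GQ → Fin 2 → A) where
  carrier := {u | ∃ w, ∀ g ∈ K, u g = a g *ᵥ w - w}
  add_mem' := fun ⟨w, h⟩ ⟨w', h'⟩ => ⟨w + w', fun g m => by
    rw [Pi.add_apply, h g m, h' g m, mulVec_add]; abel⟩
  zero_mem' := ⟨0, by simp⟩
  smul_mem' c _ := fun ⟨w, h⟩ => ⟨c • w, fun g m => by rw [Pi.smul_apply, h g m, mulVec_smul, smul_sub]⟩

theorem ch_iff {a : GQ → M2 A} : Ch K a u u' ↔ (Bd K a).mkQ u = (Bd K a).mkQ u' :=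
  (Submodule.Quotient.eq (Bd K a)).symm

/-- cocycles -/
def Zc (a : GQ → M2 A) : Submodule A (GQ → Fin 2 → A) where
  carrier := {u | ∀ g h, u (g * h) = u g + a g *ᵥ u h}
  add_mem' h h' g k := by simp only [Pi.add_apply, h g k, h' g k, mulVec_add]; abel
  zero_mem' g k := by simp
  smul_mem' c _ h g k := by simp only [Pi.smul_apply, h g k, mulVec_smul, smul_add]

/-- conjugation as a linear map -/
def cl (a : GQ →* M2 A) (s : GQ) : (GQ → Fin 2 → A) →ₗ[A] GQ → Fin 2 → A where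
  toFun := cj a s
  map_add' _ _ := funext fun _ => mulVec_add ..
  map_smul' c y := funext fun g => mulVec_smul (a s) c (y (s⁻¹ * g * s))

theorem cj_mul (s t : GQ) : cj a (s * t) y = cj a s (cj a t y) := funext fun g => by
  simp only [cj, map_mul, mulVec_mulVec, _root_.mul_inv_rev, mul_assoc]

theorem cj_cob (s g : GQ) (w : Fin 2 → A) :
    a s *ᵥ (a (s⁻¹ * g * s) *ᵥ w - w) = a g *ᵥ a s *ᵥ w - a s *ᵥ w := by
  rw [mulVec_sub, mulVec_mulVec, mulVec_mulVec, ← map_mul, ← map_mul, mul_assoc, mul_inv_cancel_left]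

theorem Ch.cj [n : K.Normal] (h : Ch K a u u') (s : GQ) : Ch K a (cj a s u) (cj a s u') :=
  h.elim fun w e => ⟨a s *ᵥ w, fun g m => by
    rw [Dr.cj, Dr.cj, ← mulVec_sub, e _ (n.conj_mem' _ m s), cj_cob]⟩

theorem Co.cj [n : H.Normal] (c : Co H a y) (le : K ≤ H) (s : GQ) (m : h ∈ H) :
    Ch K a (cj a (s * h) y) (cj a s y) := ⟨a s *ᵥ y h, fun g k => by
  have b := n.conj_mem' _ (le k) s
  have e := c.coc h m _ (n.conj_mem' _ b h)
  rw [show h * (h⁻¹ * (s⁻¹ * g * s) * h) = s⁻¹ * g * s * h by group, c.coc _ b _ m] at e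
  rw [cj_mul, Dr.cj, Dr.cj, Dr.cj, ← mulVec_sub, ← cj_cob]
  exact congrArg _ (by linear_combination (exp := 1) -e)⟩

theorem sum_rep {Q X : Type} [AddCommMonoid Q] [Fintype X] [Fintype (GQ ⧸ H)] {F : GQ → Q}
    (hF : ∀ s, ∀ h ∈ H, F (s * h) = F s) {s : X → GQ} (b : Function.Bijective fun x => (s x : GQ ⧸ H)) :
    ∑ x : GQ ⧸ H, F x.out = ∑ x, F (s x) := by
  rw [← b.sum_comp]
  refine Finset.sum_congr rfl fun x _ => ?_
  obtain ⟨h, e⟩ := QuotientGroup.mk_out_eq_mul H (s x)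
  rw [e, hF _ _ h.2]

theorem Tv.inj (t : Tv H H' T) {s s' : T} (e : s.1⁻¹ * s' ∈ H') : s = s' :=
  Subtype.ext ((t.2 s' (t.1 _ s'.2)).unique ⟨s.2, e⟩ ⟨s'.2, by simp⟩)

theorem Tv.bij (t : Tv ⊤ H T) : Function.Bijective fun s : T => ((s : GQ) : GQ ⧸ H) :=
  ⟨fun _ _ e => t.inj (QuotientGroup.eq.1 e), fun x => x.inductionOn' fun g =>
    (t.2 g trivial).exists.elim fun s e => ⟨⟨s, e.1⟩, QuotientGroup.eq.2 e.2⟩⟩

theorem Tv.bij2 (t : Tv H H' T) (le : H' ≤ H) :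
    Function.Bijective fun p : (GQ ⧸ H) × T => ((p.1.out * p.2 : GQ) : GQ ⧸ H') := by
  refine ⟨fun ⟨x, s⟩ ⟨x', s'⟩ e => ?_, fun x => x.inductionOn' fun g => ?_⟩
  · have e := QuotientGroup.eq.1 e
    obtain rfl : x = x' := by
      have := QuotientGroup.eq.2 (le e)
      rwa [QuotientGroup.mk_mul_of_mem _ (t.1 _ s.2), QuotientGroup.mk_mul_of_mem _ (t.1 _ s'.2),
        QuotientGroup.out_eq', QuotientGroup.out_eq'] at this
    rw [t.inj (s := s) (s' := s') (by simpa [mul_assoc] using e)]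
  · obtain ⟨s, e⟩ := (t.2 _ (QuotientGroup.eq.1 (QuotientGroup.out_eq' (g : GQ ⧸ H)))).exists
    exact ⟨⟨g, s, e.1⟩, QuotientGroup.eq.2 (by simpa [mul_assoc] using e.2)⟩

theorem bij_mul [H.Normal] (φ : GQ) :
    Function.Bijective fun x : GQ ⧸ H => ((x.out * φ : GQ) : GQ ⧸ H) := by
  simpa using Group.mulRight_bijective (φ : GQ ⧸ H)

/-- corestriction -/
def cr (a : GQ → M2 A) (H : Subgroup GQ) (y : GQ → Fin 2 → A) (g : GQ) : Fin 2 → A :=
  ∑ᶠ x : GQ ⧸ H, a x.out *ᵥ y (x.out⁻¹ * g * (g⁻¹ • x).out)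

variable [Fintype (GQ ⧸ H)]

theorem cr_eq [n : H.Normal] (m : g ∈ H) : cr a H y g = (∑ x : GQ ⧸ H, cj a x.out y) g := by
  rw [cr, finsum_eq_sum_of_fintype, Finset.sum_apply]
  refine Finset.sum_congr rfl fun x _ => ?_
  rw [show g⁻¹ • x = x by
    rw [← MulAction.Quotient.mk_smul_out, smul_eq_mul, QuotientGroup.mk_mul,
      (QuotientGroup.eq_one_iff _).2 (H.inv_mem m), one_mul, QuotientGroup.out_eq']]
  rfl

theorem Co.cr_mem (c : Co H a y) : cr a H y ∈ Zc a := fun g h => by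
  have m (g : GQ) (x : GQ ⧸ H) : x.out⁻¹ * g * (g⁻¹ • x).out ∈ H := by
    rw [mul_assoc, ← QuotientGroup.eq, ← smul_eq_mul, MulAction.Quotient.mk_smul_out, smul_inv_smul,
      QuotientGroup.out_eq']
  simp only [cr, finsum_eq_sum_of_fintype]
  rw [← (MulAction.bijective g⁻¹).sum_comp fun x : GQ ⧸ H => a x.out *ᵥ y (x.out⁻¹ * h * (h⁻¹ • x).out),
    mulVec_sum, ← Finset.sum_add_distrib]
  refine Finset.sum_congr rfl fun x _ => ?_
  rw [show x.out⁻¹ * (g * h) * ((g * h)⁻¹ • x).out = x.out⁻¹ * g * (g⁻¹ • x).out *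
      ((g⁻¹ • x).out⁻¹ * h * (h⁻¹ • g⁻¹ • x).out) by rw [_root_.mul_inv_rev, mul_smul]; group,
    c.coc _ (m g x) _ (m h _), mulVec_add, mulVec_mulVec, mulVec_mulVec, ← map_mul, ← map_mul]
  simp only [mul_assoc, mul_inv_cancel_left]

theorem Co.cr [n : H.Normal] (c : Co H a y) (o : IsOpen (H : Set GQ)) : Co ⊤ a (cr a H y) := by
  obtain ⟨W, h1, h2⟩ := c.lc
  refine ⟨fun g _ h _ => c.cr_mem g h, (W ⊓ H).normalCore, P022K.GW.Pl.core_open (h1.inter o),
    fun w m _ => ?_⟩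
  rw [cr_eq ((W ⊓ H).normalCore_le m).2, Finset.sum_apply]
  refine Finset.sum_eq_zero fun x _ => ?_
  have := (W ⊓ H).normalCore_le (Subgroup.Normal.conj_mem' inferInstance _ m x.out)
  rw [Dr.cj, h2 _ this.1 this.2, mulVec_zero]

theorem Co.mk_cr {X : Type} [Fintype X] [H.Normal] (c : Co H a y) (le : K ≤ H) {s : X → GQ}
    (b : Function.Bijective fun x => (s x : GQ ⧸ H)) :
    (Bd K a).mkQ (Dr.cr a H y) = ∑ x, (Bd K a).mkQ (Dr.cj a (s x) y) := by
  rw [← sum_rep (F := fun s => (Bd K a).mkQ (Dr.cj a s y)) (fun s h m => ch_iff.1 (c.cj le s m)) b,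
    ← map_sum]
  exact ch_iff.1 ⟨0, fun g m => by rw [cr_eq (le m)]; simp⟩

theorem Co.mk_tr [Fintype (GQ ⧸ H')] [H'.Normal] (c : Co H' a y) (le : K ≤ H') (l' : H' ≤ H)
    (t : Tv H H' T) : (Bd K a).mkQ (Dr.cr a H' y) =
      ∑ x : GQ ⧸ H, (Bd K a).mkQ (cl a x.out (∑ s ∈ T, Dr.cj a s y)) := by
  rw [c.mk_cr le (t.bij2 l'), Fintype.sum_prod_type]
  refine Finset.sum_congr rfl fun x _ => ?_
  rw [map_sum, map_sum, ← Finset.sum_coe_sort T]
  exact Finset.sum_congr rfl fun s _ => congrArg _ (cj_mul ..)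

theorem Co.mk_sh [H.Normal] (c : Co H a y) (le : K ≤ H) (φ : GQ) :
    ∑ x : GQ ⧸ H, (Bd K a).mkQ (cl a x.out (Dr.cj a φ y)) = (Bd K a).mkQ (Dr.cr a H y) := by
  rw [c.mk_cr le (bij_mul φ)]
  exact Finset.sum_congr rfl fun s _ => congrArg _ (cj_mul ..).symm

/-- the normalisation which kills the coboundaries -/
def nm (a : GQ → M2 A) (k : GQ) : (GQ → Fin 2 → A) →ₗ[A] GQ → Fin 2 → A where
  toFun u g := (a k - 1).det • ((a k - 1).det • u g -
    (a g *ᵥ (a k - 1).adjugate *ᵥ u k - (a k - 1).adjugate *ᵥ u k))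
  map_add' u v := funext fun g => by simp only [Pi.add_apply, mulVec_add]; module
  map_smul' c u := funext fun g => by simp only [Pi.smul_apply, mulVec_smul, RingHom.id_apply]; module

theorem nm_eq [n : K.Normal] {k : GQ} (m : k ∈ K) (z : u ∈ Zc a) (z' : u' ∈ Zc a)
    (e : (Bd K a).mkQ u = (Bd K a).mkQ u') : nm a k u = nm a k u' := by
  obtain ⟨w, e⟩ := (Submodule.Quotient.eq _).1 e
  rw [← sub_eq_zero, ← map_sub]
  have c := sub_mem z z'
  generalize u - u' = v at *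
  funext g
  have h1 := c k g
  have h2 := c g (g⁻¹ * k * g)
  rw [show g * (g⁻¹ * k * g) = k * g by group, h1, e _ (n.conj_mem' _ m g), cj_cob, e k m] at h2
  have : (a k - 1).det • (v g - (a g *ᵥ w - w)) = 0 := det_smul (by
    simp only [sub_mulVec, mulVec_sub, one_mulVec]
    linear_combination (exp := 1) h2)
  have q : (a k - 1).adjugate *ᵥ v k = (a k - 1).det • w := by
    rw [e k m, ← one_mulVec w, mulVec_mulVec, mul_one, ← sub_mulVec, mulVec_mulVec, adjugate_mul,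
      smul_mulVec]
  rw [nm, LinearMap.coe_mk, AddHom.coe_mk, Pi.zero_apply]
  beta_reduce
  rw [q, mulVec_smul, ← smul_sub, ← smul_sub, this, smul_zero]

theorem Co.nm (c : Co ⊤ a u) (k : GQ) : Co ⊤ a (nm a k u) := by
  obtain ⟨U, u1, u2, u3⟩ := c.core
  refine ⟨fun g _ h _ => ?_, U, u2, fun w m _ => ?_⟩
  · simp only [Dr.nm, LinearMap.coe_mk, AddHom.coe_mk, c.coc g trivial h trivial, map_mul,
      ← mulVec_mulVec, mulVec_smul, mulVec_sub]
    module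
  · have f (w) (m : w ∈ U) : a w *ᵥ u k = u k := by
      have := c.coc w trivial k trivial
      rw [show w * k = k * (k⁻¹ * w * k) by group, c.coc _ trivial _ trivial,
        u3 _ (u1.conj_mem' _ m _), u3 w m, mulVec_zero, add_zero, zero_add] at this
      exact this.symm
    have q : (a k - 1).adjugate = ((a k).trace - 1) • 1 - a k := by
      ext i j
      fin_cases i <;> fin_cases j <;> simp [adjugate_fin_two, trace_fin_two] <;> ring
    have r := cj_cob (a := a) k w (u k)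
    rw [f _ (u1.conj_mem' _ m _), sub_self, mulVec_zero] at r
    rw [Dr.nm, LinearMap.coe_mk, AddHom.coe_mk]
    beta_reduce
    rw [q, sub_mulVec, smul_mulVec, one_mulVec, mulVec_sub, mulVec_smul, f w m, sub_eq_zero.1 r.symm,
      u3 w m]
    simp

end gen

variable {N M : ℕ} {ρ : GQ →* M2 (Zn N)} {A : Type} [CommRing A] {ι : Zn N →+* A} {Ψ : GQ →* A}
  {y y' : GQ → Fin 2 → Zn N} {H : Subgroup GQ}

variable (ι) in
/-- change of coefficients -/
def lf : (GQ → Fin 2 → Zn N) →+ GQ → Fin 2 → A where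
  toFun y g := ι ∘ y g
  map_zero' := funext fun _ => funext fun _ => map_zero ι
  map_add' _ _ := funext fun _ => funext fun _ => map_add ι _ _

theorem aa_lf (g : GQ) (w : Fin 2 → Zn N) : aa ρ ι Ψ g *ᵥ (ι ∘ w) = Ψ g • (ι ∘ (ρ g *ᵥ w)) := by
  rw [aa, smul_mulVec]
  exact congrArg _ (funext fun i => (RingHom.map_mulVec ..).symm)

theorem cj_lf (s : GQ) : cj (am ρ ι Ψ) s (lf ι y) = Ψ s • lf ι (cj ρ s y) := funext fun _ => aa_lf ..

theorem Co.lf (c : Co H ρ y) (e : ∀ g ∈ H, Ψ g = 1) : Co H (am ρ ι Ψ) (lf ι y) :=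
  ⟨fun g m h m' => by
    show ι ∘ _ = ι ∘ _ + aa ρ ι Ψ g *ᵥ (ι ∘ _)
    rw [c.coc g m h m', aa_lf, e g m, one_smul]
    exact funext fun _ => map_add .., c.lc.imp fun W w => ⟨w.1, fun g a b => by
    show ι ∘ _ = _
    rw [w.2 g a b]
    exact funext fun _ => map_zero _⟩⟩

theorem Ch.lf (c : Ch H ρ y y') (e : ∀ g ∈ H, Ψ g = 1) : Ch H (am ρ ι Ψ) (lf ι y) (lf ι y') :=
  c.elim fun w h => ⟨ι ∘ w, fun g m => by
    show ι ∘ _ - ι ∘ _ = aa ρ ι Ψ g *ᵥ _ - _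
    rw [aa_lf, e g m, one_smul]
    exact funext fun i => by simpa using congrArg (fun v => ι (v i)) (h g m)⟩

/-- **row SHP** -/
theorem shp : SHP := fun N ρ S a Ad y G R k hk => by
  have fi M (m : Ad M) : Fintype (GQ ⧸ Hm M) :=
    have := (Hm M).quotient_finite_of_isOpen (Hm_open (G.pos M m))
    Fintype.ofFinite _
  have co M (A : Type) [CommRing A] ι (Ψ : GQ →* A) (m : Ad M) (c : Cd M Ψ) :
      Co ⊤ (am ρ ι Ψ) (cor ρ ι Ψ (Hm M) (y M)) :=
    have := fi M m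
    ((R.co M m).lf c).cr (Hm_open (G.pos M m))
  have zc M (A : Type) [CommRing A] ι (Ψ : GQ →* A) (m : Ad M) (c : Cd M Ψ) :
      cor ρ ι Ψ (Hm M) (y M) ∈ Zc (am ρ ι Ψ) :=
    fun g h => (co M A ι Ψ m c).coc g trivial h trivial
  have sl (A : Type) [CommRing A] ι (Ψ : GQ →* A) M M' T (t : Tv (Hm M) (Hm M') T)
      (c : Cd M Ψ) :
      ∑ s ∈ T, cj (am ρ ι Ψ) s (lf ι (y M')) = lf ι (∑ s ∈ T, cj ρ s (y M')) := by
    rw [map_sum]
    exact Finset.sum_congr rfl fun s m => by rw [cj_lf, c s (t.1 s m), one_smul]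
  refine ⟨fun M A _ ι Ψ => nm (aa ρ ι Ψ) k (cor ρ ι Ψ (Hm M) (y M)),
    ⟨fun M A _ ι Ψ m c => (co M A ι Ψ m c).nm k, fun M A B _ _ f ι Ψ g i m => ?_,
      fun M A _ ι Ψ m c => ?_, fun M A _ ι Ψ l P φ m c o s d f => ?_⟩,
    fun M A _ ι Ψ m c => ⟨co M A ι Ψ m c, ?_, fun T t => ?_⟩⟩
  · have := fi M m
    have e g : f ∘ cor ρ ι Ψ (Hm M) (y M) g =
        cor ρ (f.comp ι) (f.toMonoidHom.comp Ψ) (Hm M) (y M) g := funext fun i => by
      simp only [cor, finsum_eq_sum_of_fintype, Function.comp, Finset.sum_apply, map_sum,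
        RingHom.map_mulVec, aa_map]
      rfl
    have q : f.mapMatrix (aa ρ ι Ψ k - 1) = aa ρ (f.comp ι) (f.toMonoidHom.comp Ψ) k - 1 := by
      rw [map_sub, map_one, RingHom.mapMatrix_apply, aa_map]
    have r : f ∘ ((aa ρ ι Ψ k - 1).adjugate *ᵥ cor ρ ι Ψ (Hm M) (y M) k) = _ := funext fun i => by
      rw [Function.comp, RingHom.map_mulVec, ← RingHom.mapMatrix_apply, RingHom.map_adjugate, q, e]
    simp only [nm, LinearMap.coe_mk, AddHom.coe_mk, Pi.smul_apply, Pi.sub_apply, smul_eq_mul, map_mul,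
      map_sub, RingHom.map_det, q, RingHom.map_mulVec f (aa ρ ι Ψ g), r, aa_map, ← e]
    rw [e k, ← congrFun r i]
    rfl
  · have := fi M m
    have := fi _ (G.ad2 M m)
    obtain ⟨T, t, h⟩ := R.two M m
    have c' := c.mono ⟨2, rfl⟩
    have le := Ha_le (G.pos M m)
    refine nm_eq (a := am ρ ι Ψ) hk (zc _ A ι Ψ (G.ad2 M m) c') (zc M A ι Ψ m c) ?_
    refine (((R.co _ (G.ad2 M m)).lf c').mk_tr (Ha_le (G.pos _ (G.ad2 M m))) (Hm_le ⟨2, rfl⟩) t).trans
      (Eq.trans (Finset.sum_congr rfl fun x _ => ?_) (((R.co M m).lf c).mk_cr le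
        (s := Quotient.out) (by simpa using Function.bijective_id)).symm)
    rw [sl A ι Ψ _ _ T t c]
    exact ch_iff.1 ((h.lf fun g a => c g (le a)).cj _)
  · have m' := G.adl M l m o.1 s d
    have := fi M m
    have := fi _ m'
    obtain ⟨T, t, h⟩ := R.odd M l P φ m o s d f
    have c' := c.mono ⟨l, rfl⟩
    have le := Ha_le (G.pos M m)
    have k0 := ((R.co M m).lf (ι := ι) c).mk_sh le
    have k1 (ψ : GQ) : lf ι (cj ρ ψ⁻¹ (y M)) = Ψ ψ • cj (am ρ ι Ψ) ψ⁻¹ (lf ι (y M)) := by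
      rw [cj_lf, smul_smul, ← map_mul, mul_inv_cancel, map_one, one_smul]
    rw [← map_smul, ← map_smul]
    refine nm_eq (a := am ρ ι Ψ) hk (Submodule.smul_mem _ _ (zc _ A ι Ψ m' c'))
      (Submodule.smul_mem _ _ (zc M A ι Ψ m c)) ?_
    rw [map_smul, map_smul, show cor ρ ι Ψ _ (y (M * l)) = cr (am ρ ι Ψ) _ (lf ι (y (M * l))) from rfl,
      ((R.co _ m').lf c').mk_tr (Ha_le (G.pos _ m')) (Hm_le ⟨l, rfl⟩) t, Finset.smul_sum,
      show cor ρ ι Ψ _ (y M) = cr (am ρ ι Ψ) _ (lf ι (y M)) from rfl, add_smul, sub_smul]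
    nth_rw 1 [← k0 1]
    nth_rw 1 [← k0 φ⁻¹]
    rw [← k0 (φ ^ 2)⁻¹]
    simp only [Finset.smul_sum, ← Finset.sum_sub_distrib, ← Finset.sum_add_distrib, ← map_smul,
      ← map_sub, ← map_add]
    refine Finset.sum_congr rfl fun x _ => ch_iff.1 (Ch.cj ?_ _)
    have := h.lf (ι := ι) fun g a => c g (le a)
    rw [map_nsmul, map_add, map_sub, map_nsmul, map_zsmul, inv_pow, k1, k1, ← sl A ι Ψ _ _ T t c,
      map_pow, ← Nat.cast_smul_eq_nsmul A, ← Nat.cast_smul_eq_nsmul A, ← Int.cast_smul_eq_zsmul A,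
      smul_smul, Finset.smul_sum] at this
    rw [show cj (am ρ ι Ψ) 1 (lf ι (y M)) = lf ι (y M) from funext fun g => by simp [cj]]
    exact this
  · have q : (aa ρ ι Ψ k - 1).det = ι (ρ k - 1).det := by
      rw [RingHom.map_det, map_sub, map_one, aa, c k (Ha_le (G.pos M m) hk), one_smul]; rfl
    refine ⟨-(ι (ρ k - 1).det • ((aa ρ ι Ψ k - 1).adjugate *ᵥ cor ρ ι Ψ (Hm M) (y M) k)), fun g _ => ?_⟩
    simp only [nm, LinearMap.coe_mk, AddHom.coe_mk, q, Pi.smul_apply, mulVec_neg, mulVec_smul]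
    module
  · have := fi M m
    refine ch_iff.2 ((((R.co M m).lf c).mk_cr le_rfl t.bij).trans ?_)
    rw [← map_sum, Finset.sum_coe_sort T fun s => cj (am ρ ι Ψ) s (lf ι (y M))]
    exact congrArg _ (funext fun g => by simp only [Finset.sum_apply, cj_lf]; rfl)

end Vale.Agent.P014T.Dr
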