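import Vale.Agent.P014T.Dr.Cy

/-! # P014T, block DER: row UNR and the finite-singular relation (helper7) -/

set_option linter.all false

open NumberField Matrix

noncomputable section

namespace Vale.Agent.P014T.Dr

open Vale.Agent.P022 (Qb GQ)
open Vale.Agent.P027M.S (Inert)
open Vale.Agent.P022E.GW (Ov Fb Gn)
open Vale.Agent.P022D.W (dec conj_inP phi_mem exists_phi)
open Vale.Agent.P022.H443 (inP)
open Vale.Agent.P004F (M2)
open Vale.Agent.P004F.En (Wd wd_frob)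

variable {N : ℕ} {ρ : GQ →* M2 (Zn N)} {A B : Type} [CommRing A] [CommRing B] {ι : Zn N →+* A}
  {Ψ : GQ →* A} {l M : ℕ} {P : Ideal (𝓞 Qb)} {g h i φ τ : GQ}

theorem nil2 (ι : Zn N →+* A) : IsNilpotent (2 : A) :=
  ⟨N, by simpa only [map_zero, Nat.cast_pow, Nat.cast_ofNat, map_pow, map_ofNat] using
    congrArg ι (ZMod.natCast_self (2 ^ N))⟩

variable (ρ ι Ψ) in
/-- the twisted action as a homomorphism -/
def am : GQ →* M2 A where
  toFun := aa ρ ι Ψ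
  map_one' := by simp [aa]
  map_mul' g h := by simp [aa, Matrix.map_mul, smul_smul, mul_comm]

theorem aa_mul (g h : GQ) : aa ρ ι Ψ (g * h) = aa ρ ι Ψ g * aa ρ ι Ψ h := (am ρ ι Ψ).map_mul g h

theorem aa_eq_one (h1 : ρ g = 1) (h2 : Ψ g = 1) : aa ρ ι Ψ g = 1 := by simp [aa, h1, h2]

theorem aa_map (f : A →+* B) (g : GQ) :
    (aa ρ ι Ψ g).map f = aa ρ (f.comp ι) (f.toMonoidHom.comp Ψ) g := by
  ext; simp [aa]

theorem det_aa (t : ℤ) (h : (ρ φ).det = l ∧ (ρ φ).trace = t) (c : A) :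
    (c • 1 - aa ρ ι Ψ φ).det = c ^ 2 - c * t * Ψ φ + l * Ψ φ ^ 2 := by
  have a := congrArg ι h.1
  have b := congrArg ι h.2
  simp only [det_fin_two, trace_fin_two, map_sub, map_mul, map_add, map_natCast, map_intCast] at a b
  simp [aa, det_fin_two]
  linear_combination Ψ φ ^ 2 * a - c * Ψ φ * b

theorem det_smul {m : M2 A} {v : Fin 2 → A} (h : m *ᵥ v = 0) : m.det • v = 0 := by
  have := congrArg (m.adjugate *ᵥ ·) h
  simpa only [mulVec_mulVec, adjugate_mul, smul_mulVec, one_mulVec, mulVec_zero] using this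

section co

variable {H : Subgroup GQ} {a : GQ →* M2 A} {Z : GQ → Fin 2 → A}

theorem Co.one (c : Co H a Z) : Z 1 = 0 := by simpa using c.coc 1 H.one_mem 1 H.one_mem

theorem Co.inv (c : Co H a Z) (m : g ∈ H) : Z g + a g *ᵥ Z g⁻¹ = 0 := by
  rw [← c.coc g m _ (H.inv_mem m), mul_inv_cancel, c.one]

theorem Co.pow (c : Co ⊤ a Z) (e : a g = 1) (k : ℕ) : Z (g ^ k) = (k : A) • Z g := by
  induction k with
  | zero => simp [c.one]
  | succ k ih => rw [pow_succ', c.coc _ trivial _ trivial, ih, e, one_mulVec, Nat.cast_succ, add_smul,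
      one_smul, add_comm]

theorem Co.conj (c : Co ⊤ a Z) (e : a i = 1) (g : GQ) : Z (g * i * g⁻¹) = a g *ᵥ Z i := by
  rw [c.coc _ trivial _ trivial, c.coc _ trivial _ trivial, map_mul, e, mul_one, add_right_comm,
    c.inv trivial, zero_add]

theorem Co.core (c : Co ⊤ a Z) : ∃ U : Subgroup GQ, U.Normal ∧ IsOpen (U : Set GQ) ∧ ∀ w ∈ U, Z w = 0 := by
  obtain ⟨W, h1, h2⟩ := c.lc
  exact ⟨W.normalCore, inferInstance, P022K.GW.Pl.core_open h1,
    fun w hw => h2 w (W.normalCore_le hw) trivial⟩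

theorem Co.wild (c : Co ⊤ a Z) (u : IsUnit (l : A)) (w : Wd l g) (e : a g = 1) : Z g = 0 := by
  obtain ⟨U, h1, h2, h3⟩ := c.core
  obtain ⟨n, hn⟩ := w U h1 h2
  have := h3 _ hn
  rwa [c.pow e, Nat.cast_pow, (u.pow n).smul_eq_zero] at this

theorem Co.tame (c : Co ⊤ a Z) (u : IsUnit (l : A)) (o : Ov l P) (f : Fb l P φ) (m : Inert P i)
    (e : a i = 1) : ((l : A) • 1 - a φ).det • Z i = 0 := by
  have k : a (φ * i * φ⁻¹ * (i ^ l)⁻¹) = 1 := a.mem_ker.1 (mul_mem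
    (a.normal_ker.conj_mem _ (a.mem_ker.2 e) _) (inv_mem (pow_mem (a.mem_ker.2 e) _)))
  have := c.coc (φ * i * φ⁻¹ * (i ^ l)⁻¹) trivial (i ^ l) trivial
  rw [inv_mul_cancel_right, c.conj e, c.wild u (wd_frob o f m) k, k, c.pow e, zero_add,
    one_mulVec] at this
  exact det_smul (by rw [sub_mulVec, this, smul_mulVec, one_mulVec, sub_self])

end co

theorem Cd.mono {M' : ℕ} (c : Cd M Ψ) (d : M ∣ M') : Cd M' Ψ := fun g m => c g (Hm_le d m)

theorem Cd.mul {Ψ' : GQ →* A} (c : Cd M Ψ) (c' : Cd M Ψ') : Cd M (Ψ * Ψ') := fun g m => by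
  rw [MonoidHom.mul_apply, c g m, c' g m, mul_one]

theorem Cd.map (c : Cd M Ψ) (f : A →+* B) : Cd M (f.toMonoidHom.comp Ψ) := fun g m => by
  rw [MonoidHom.comp_apply, c g m, map_one]

theorem nil_map (f : A →+* B) {x : A} (h : IsNilpotent (x - 1)) : IsNilpotent (f x - 1) := by
  simpa using h.map f

variable {S : Finset ℕ} {a : ℕ → ℤ} {Ad : ℕ → Prop} {z : Fm N}

theorem Gr.pow (G : Gr ρ S a Ad) (m : Ad M) (k : ℕ) : Ad (M * 2 ^ k) := by
  induction k with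
  | zero => simpa using m
  | succ k ih => rw [pow_succ, ← mul_assoc]; exact G.ad2 _ ih

theorem Gr.ne (G : Gr ρ S a Ad) (s : l ∉ S) : l ≠ 2 := fun e => s (e ▸ G.two)

theorem Eu.pow (E : Eu ρ S a Ad z) (G : Gr ρ S a Ad) (m : Ad M) (c : Cd M Ψ) (k : ℕ) :
    z (M * 2 ^ k) A ι Ψ = z M A ι Ψ := by
  induction k with
  | zero => simp
  | succ k ih => rw [pow_succ, ← mul_assoc, E.two _ _ _ _ (G.pow m k) (c.mono ⟨_, rfl⟩), ih]

/-- back from the ring with the cyclotomic variable -/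
theorem Eu.back (E : Eu ρ S a Ad z) (G : Gr ρ S a Ad) (m : Ad M) (c : Cd M Ψ) (k : ℕ) {j : A →+* B}
    {e : B →+* A} (h : ∀ x, e (j x) = x) {Ψ' : GQ →* B} (h' : ∀ g, e (Ψ' g) = Ψ g) (g : GQ) (n : Fin 2) :
    e (z (M * 2 ^ k) B (j.comp ι) Ψ' g n) = z M A ι Ψ g n := by
  rw [E.map _ _ _ e _ _ _ _ (G.pow m k), show e.comp (j.comp ι) = ι from RingHom.ext fun _ => h _,
    show e.toMonoidHom.comp Ψ' = Ψ from MonoidHom.ext h', E.pow G m c]

variable (ρ l P) in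
/-- an odd unramified place -/
structure Ug : Prop where
  ov : Ov l P
  ne : l ≠ 2
  unr : ∀ i, Inert P i → ρ i = 1
  det : ∀ φ, Fb l P φ → (ρ φ).det = l

theorem Gr.ug (G : Gr ρ S a Ad) (o : Ov l P) (s : l ∉ S) : Ug ρ l P :=
  ⟨o, G.ne s, G.unr l P o s, fun φ f => (G.frb l P φ o s f).1⟩

/-- unramified at every odd place where `ρ` is, also in `S` -/
theorem unr0 (G : Gr ρ S a Ad) (E : Eu ρ S a Ad z) (m : Ad M) (c : Cd M Ψ)
    (nil : ∀ g, IsNilpotent (Ψ g - 1)) (U : Ug ρ l P) (hi : Inert P i) (e : Ψ i = 1) :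
    z M A ι Ψ i = 0 := by
  have o := U.ov
  obtain ⟨φ, f⟩ : ∃ φ, Fb l P φ := exists_phi o.1 o.2.1 o.2.2
  obtain ⟨t, ht⟩ := ZMod.intCast_surjective (ρ φ).trace
  obtain ⟨k, B, _, j, p, γ, h1, h2, h3, -, h5⟩ := ex_var (nil2 ι) o U.ne f (nil φ) t
  have u : IsUnit (l : B) := odd_unit (nil2 (j.comp ι)) (o.1.odd_of_ne_two U.ne)
  have t := Co.tame (a := am ρ (j.comp ι) (j.toMonoidHom.comp Ψ * γ)) (E.co _ _ _ _ (G.pow m k)
    (((c.map j).mono ⟨_, rfl⟩).mul (h3.mono (dvd_mul_left _ _)))) u o f hi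
    (aa_eq_one (U.unr i hi) (by simp [e, h3 i (inert_Hm o (nd_two o U.ne k) hi)]))
  funext n
  rw [← E.back G m c k h1 (Ψ' := j.toMonoidHom.comp Ψ * γ) fun g => by simp [h1, h2]]
  refine h5 _ (u.mul_right_eq_zero.1 ?_)
  have := congrFun t n
  rw [show am ρ (j.comp ι) (j.toMonoidHom.comp Ψ * γ) φ = aa ρ _ _ φ from rfl,
    det_aa _ ⟨U.det φ f, ht.symm⟩] at this
  simp only [Pi.smul_apply, smul_eq_mul, Pi.zero_apply, MonoidHom.mul_apply, MonoidHom.comp_apply,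
    RingHom.toMonoidHom_eq_coe, MonoidHom.coe_coe] at this ⊢
  linear_combination this

/-- **row UNR** -/
theorem unr : UNR := fun N ρ S a Ad z G E M A _ ι Ψ m c nil l P i o s hi e =>
  unr0 G E m c nil (G.ug o s) hi e

theorem fb_mul (o : Ov l P) (f : Fb l P φ) (m : Inert P i) : Fb l P (φ * i) := fun x => by
  have := P.add_mem ((phi_mem o.1 o.2.1 f _).2 (m x)) (f x)
  rwa [smul_sub, sub_add_sub_cancel, ← mul_smul] at this

theorem kill {x u v : A} (h : x ^ 2 = 0)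
    (e : Ideal.Quotient.mk (Ideal.span {x}) u = Ideal.Quotient.mk (Ideal.span {x}) v) :
    x * u = x * v := by
  obtain ⟨c, hc⟩ := Ideal.mem_span_singleton.1 (Ideal.Quotient.eq.1 e)
  linear_combination x * hc + c * h

/-- the relation modulo `x` -/
theorem Eu.modx (E : Eu ρ S a Ad z) (G : Gr ρ S a Ad) (m : Ad M) (c : Cd M Ψ) (o : Ov l P) (s : l ∉ S)
    (d : ¬ l ∣ M) (f : Fb l P φ) (l1 : (l : A) = 1) {x : A} (x2 : x ^ 2 = 0) {ξ : GQ →* A}
    (h : ∀ g, ∃ c, ξ g = 1 + c * x) (g : GQ) :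
    x • z (M * l) A ι (Ψ * ξ) g = x • (1 - a l * Ψ φ + Ψ φ ^ 2) • z M A ι Ψ g := by
  funext n
  refine kill x2 ?_
  set π := Ideal.Quotient.mk (Ideal.span {x})
  have q : π.toMonoidHom.comp (Ψ * ξ) = π.toMonoidHom.comp Ψ := MonoidHom.ext fun g => by
    obtain ⟨c, hc⟩ := h g
    have : π x = 0 := Ideal.Quotient.eq_zero_iff_mem.2 (Ideal.mem_span_singleton_self x)
    simp [hc, this]
  have := congrFun (congrFun (E.odd M _ (π.comp ι) _ l P φ m (c.map π) o s d f) g) n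
  rw [show (l : A ⧸ Ideal.span {x}) = 1 by rw [← map_natCast π, l1, map_one], one_smul] at this
  rw [E.map _ _ _ π _ _ _ _ (G.adl _ _ m o.1 s d), q, this, Pi.smul_apply, Pi.smul_apply,
    ← E.map _ _ _ π _ _ _ _ m]
  simp

theorem fs0 (E : Eu ρ S a Ad z) (G : Gr ρ S a Ad) (m : Ad M) (c : Cd M Ψ)
    (nil : ∀ g, IsNilpotent (Ψ g - 1)) (o : Ov l P) (s : l ∉ S) (d : ¬ l ∣ M) (f : Fb l P φ)
    (t : Inert P τ) (l1 : (l : A) = 1) {x : A} (x2 : x ^ 2 = 0) {ξ : GQ →* A} (c' : Cd l ξ)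
    (h : ∀ g, ∃ c, ξ g = 1 + c * x) (e1 : ξ τ = 1 + x) (e2 : ξ φ = 1) :
    (1 - a l * Ψ φ + Ψ φ ^ 2) • (z (M * l) A ι (Ψ * ξ) τ +
      x • ((1 - aa ρ ι Ψ φ).adjugate *ᵥ z M A ι Ψ φ)) = 0 := by
  have m' := G.adl _ _ m o.1 s d
  have c2 := (c.mono ⟨l, rfl⟩).mul (c'.mono (dvd_mul_left l M))
  have co := E.co _ _ ι _ m' c2
  have hi : Inert P (φ * τ * φ⁻¹ * τ⁻¹) :=
    (inP P).mul_mem (conj_inP (phi_mem o.1 o.2.1 f) t) ((inP P).inv_mem t)
  have e : (Ψ * ξ) (φ * τ * φ⁻¹ * τ⁻¹) = 1 := by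
    rw [map_mul, map_mul, map_mul, mul_assoc, mul_mul_mul_comm, ← map_mul, ← map_mul]; simp
  have k := co.coc (φ * τ * φ⁻¹ * τ⁻¹) trivial (τ * φ) trivial
  have dt : (1 - aa ρ ι Ψ φ).det = 1 - a l * Ψ φ + Ψ φ ^ 2 := by
    simpa [l1] using det_aa (ι := ι) (Ψ := Ψ) _ (G.frb l P φ o s f) 1
  rw [unr N ρ S a Ad z G E _ A ι _ m' c2 (fun g => nil_mul (nil g) (by
      obtain ⟨c, hc⟩ := h g
      exact ⟨2, by rw [hc]; linear_combination c ^ 2 * x2⟩)) l P _ o s hi e,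
    aa_eq_one (G.unr l P o s _ hi) e, zero_add, one_mulVec, show φ * τ * φ⁻¹ * τ⁻¹ * (τ * φ) = φ * τ by
      group, co.coc _ trivial _ trivial, co.coc _ trivial _ trivial,
    show aa ρ ι (Ψ * ξ) φ = aa ρ ι Ψ φ by simp [aa, e2],
    show aa ρ ι (Ψ * ξ) τ = (1 + x) • 1 by simp [aa, e1, c τ (inert_Hm o d t), G.unr l P o s τ t],
    smul_mulVec, one_mulVec, add_smul, one_smul, E.modx G m c o s d f l1 x2 h] at k
  rw [← dt] at k ⊢
  refine det_smul ?_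
  rw [mulVec_add, mulVec_smul, mulVec_mulVec, mul_adjugate, smul_mulVec, one_mulVec, sub_mulVec,
    one_mulVec]
  linear_combination (exp := 1) -k

/-- **the finite-singular relation** -/
theorem fs (E : Eu ρ S a Ad z) (G : Gr ρ S a Ad) (m : Ad M) (c : Cd M Ψ)
    (nil : ∀ g, IsNilpotent (Ψ g - 1)) (o : Ov l P) (s : l ∉ S) (d : ¬ l ∣ M) (f : Fb l P φ)
    (t : Inert P τ) (l1 : (l : A) = 1) {x : A} (x2 : x ^ 2 = 0) {ξ : GQ →* A} (c' : Cd l ξ)
    (h : ∀ g, ∃ c, ξ g = 1 + c * x) (e1 : ξ τ = 1 + x) (hi : Inert P i) (e2 : ξ (φ * i) = 1) :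
    z (M * l) A ι (Ψ * ξ) τ = -(x • ((1 - aa ρ ι Ψ φ).adjugate *ᵥ z M A ι Ψ φ)) := by
  have p := c i (inert_Hm o d hi)
  rw [show z M A ι Ψ φ = z M A ι Ψ (φ * i) by rw [(E.co _ _ ι _ m c).coc _ trivial _ trivial,
      unr N ρ S a Ad z G E _ A ι _ m c nil l P _ o s hi p, mulVec_zero, add_zero],
    show aa ρ ι Ψ φ = aa ρ ι Ψ (φ * i) by rw [aa_mul, aa_eq_one (G.unr l P o s _ hi) p, mul_one]]
  replace f := fb_mul o f hi
  generalize φ * i = φ at *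
  obtain ⟨k, B, _, j, p, γ, h1, h2, h3, h4, h5⟩ := ex_var (nil2 ι) o (G.ne s) f (nil φ) (a l)
  have l2 : (l : B) = 1 := by rw [← map_natCast j, l1, map_one]
  have q := fs0 (ι := j.comp ι) (Ψ := j.toMonoidHom.comp Ψ * γ) E G (G.pow m k)
    (((c.map j).mono ⟨_, rfl⟩).mul (h3.mono (dvd_mul_left _ _)))
    (fun g => nil_mul (nil_map j (nil g)) (h4 g)) o s
    (fun e => (o.1.dvd_mul.1 e).elim d (nd_two o (G.ne s) k)) f t l2 (x := j x)
    (by rw [← map_pow, x2, map_zero]) (c'.map j) (fun g => (h g).elim fun c e => ⟨j c, by simp [e]⟩)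
    (by simp [e1]) (by simp [e2])
  have b := E.back (ι := ι) G m c k h1 (Ψ' := j.toMonoidHom.comp Ψ * γ) (fun g => by simp [h1, h2]) φ
  have b' := E.back (ι := ι) G (G.adl _ _ m o.1 s d) ((c.mono ⟨l, rfl⟩).mul (c'.mono (dvd_mul_left l M)))
    k h1 (Ψ' := j.toMonoidHom.comp Ψ * γ * j.toMonoidHom.comp ξ) (fun g => by simp [h1, h2]) τ
  refine eq_neg_of_add_eq_zero_left (funext fun n => ?_)
  have r := h5 _ (by rw [l2]; exact congrFun q n)
  rw [Pi.add_apply, map_add, mul_right_comm, b', Pi.smul_apply, smul_eq_mul, map_mul, h1,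
    RingHom.map_mulVec, show p ∘ _ = _ from funext b, ← RingHom.mapMatrix_apply, RingHom.map_adjugate,
    map_sub, map_one, RingHom.mapMatrix_apply, aa_map,
    show p.comp (j.comp ι) = ι from RingHom.ext fun _ => h1 _,
    show p.toMonoidHom.comp (j.toMonoidHom.comp Ψ * γ) = Ψ from MonoidHom.ext fun g => by
      simp [h1, h2]] at r
  exact r

end Vale.Agent.P014T.Dr
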