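import Vale.Agent.P014T.Dr.St
import Vale.Agent.P004F.En.Lh
import Vale.Agent.P022K.GW.Pl

/-! # P014T, block DER: cyclotomic characters, the cyclotomic variable (helper7) -/

set_option linter.all false

open NumberField Polynomial Finset

noncomputable section

namespace Vale.Agent.P014T.Dr

open Vale.Agent.P022 (Qb GQ)
open Vale.Agent.P027M.S (Inert)
open Vale.Agent.P022E.GW (Ov Fb Gn)

section alg

variable {A : Type} [CommRing A]

theorem geom_nil (h2 : IsNilpotent (2 : A)) {x : A} (hx : IsNilpotent (x - 1)) :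
    ∃ m₀, ∀ m, m₀ ≤ m → ∑ i ∈ range (2 ^ m), x ^ i = 0 := by
  obtain ⟨n, hn⟩ : IsNilpotent (Ideal.span {2, x - 1} : Ideal A) :=
    (Ideal.FG.isNilpotent_iff_le_nilradical (Submodule.fg_span (Set.toFinite _))).2
      (Ideal.span_le.2 (by rintro _ (rfl | rfl) <;> assumption))
  have k (m) : ∑ i ∈ range (2 ^ m), x ^ i ∈ (Ideal.span {2, x - 1} : Ideal A) ^ m := by
    induction m with
    | zero => simp
    | succ m ih =>
      rw [pow_succ 2 m, mul_two, sum_range_add, pow_succ]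
      simp only [pow_add, ← mul_sum]
      rw [← one_add_mul, mul_comm (1 + _)]
      obtain ⟨c, hc⟩ := sub_one_dvd_pow_sub_one x (2 ^ m)
      refine Ideal.mul_mem_mul ih (Ideal.mem_span_pair.2 ⟨1, c, ?_⟩)
      linear_combination -hc
  exact ⟨n, fun m h => by simpa [hn] using Ideal.pow_le_pow_right h (k m)⟩

theorem nil_of_pow (h2 : IsNilpotent (2 : A)) {x : A} {k : ℕ} (h : x ^ 2 ^ k = 1) :
    IsNilpotent (x - 1) := by
  induction k generalizing x with
  | zero => simp [show x = 1 by simpa using h]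
  | succ k ih =>
    rw [pow_succ', pow_mul] at h
    exact .of_pow (m := 2) (show (x - 1) ^ 2 = x ^ 2 - 1 + 2 * (1 - x) by ring ▸
      (Commute.all _ _).isNilpotent_add (ih h) ((Commute.all _ _).isNilpotent_mul_right h2))

theorem nil_mul {x y : A} (hx : IsNilpotent (x - 1)) (hy : IsNilpotent (y - 1)) :
    IsNilpotent (x * y - 1) :=
  show x * y - 1 = (x - 1) * y + (y - 1) by ring ▸
    (Commute.all _ _).isNilpotent_add ((Commute.all _ _).isNilpotent_mul_right hx) hy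

theorem odd_nil (h2 : IsNilpotent (2 : A)) {n : ℤ} (h : Odd n) : IsNilpotent ((n : A) - 1) := by
  obtain ⟨k, rfl⟩ := h
  simpa using (Commute.all _ (k : A)).isNilpotent_mul_right h2

theorem unit_of {x : A} (h : IsNilpotent (x - 1)) : IsUnit x := by simpa using h.isUnit_add_one

theorem odd_unit (h2 : IsNilpotent (2 : A)) {n : ℕ} (h : Odd n) : IsUnit (n : A) :=
  unit_of (by simpa using odd_nil h2 h.natCast)

theorem geom_dvd (h2 : IsNilpotent (2 : A)) {s : A} (hs : IsNilpotent (s - 1)) {l : ℕ} (hl : Odd l)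
    {t : ℤ} (ht : Even t) : ∃ m₀, ∀ m, m₀ ≤ m →
      ((l : A[X]) - (t : A[X]) * (C s * X) + (C s * X) ^ 2) ∣ ∑ i ∈ range (2 ^ m), X ^ i := by
  generalize hp : (l : A[X]) - (t : A[X]) * (C s * X) + (C s * X) ^ 2 = p
  let f := AdjoinRoot.mk p
  have e : f ((l : A[X]) - (t : A[X]) * (C s * X) + (C s * X) ^ 2) = 0 := by
    rw [hp]; exact AdjoinRoot.mk_self
  have k2 : IsNilpotent (2 : AdjoinRoot p) := by simpa only [map_ofNat] using h2.map (AdjoinRoot.of p)
  obtain ⟨t, rfl⟩ := ht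
  obtain ⟨l, rfl⟩ := hl
  have k : IsNilpotent (f (C s * X) - 1) := .of_pow (m := 2) (by
    rw [map_add, map_sub, map_mul f _ (C s * X), map_pow, map_natCast, map_intCast] at e
    push_cast at e
    rw [show (f (C s * X) - 1) ^ 2 = 2 * ((t - 1) * f (C s * X) - l) by linear_combination e]
    exact (Commute.all _ _).isNilpotent_mul_right k2)
  obtain ⟨m, hm⟩ := geom_nil k2 (x := f X) (by
    rw [show f X - 1 = f (C s * X) - 1 - f (C (s - 1)) * f X by
      simp only [map_mul, map_sub, map_one]; ring]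
    exact (Commute.all _ _).isNilpotent_sub k
      ((Commute.all _ _).isNilpotent_mul_right ((hs.map C).map f)))
  exact ⟨m, fun n h => AdjoinRoot.mk_eq_zero.1 (by simpa only [map_sum, map_pow] using hm n h)⟩

variable {G : Type} [CommGroup G] [Finite G]

/-- the augmentation -/
def au (A G : Type) [CommRing A] [CommGroup G] : MonoidAlgebra A G →+* A :=
  (MonoidAlgebra.lift A A G 1).toRingHom

theorem au_single (g : G) (a : A) : au A G (MonoidAlgebra.single g a) = a := by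
  simp [au]

theorem au_zero (δ : G) {u : MonoidAlgebra A G}
    (h : (∑ i ∈ range (orderOf δ), MonoidAlgebra.of A G δ ^ i) * u = 0) : au A G u = 0 := by
  classical
  let f : MonoidAlgebra A G →ₗ[A] A := (Finsupp.linearCombination A fun g : G =>
    if (g : G ⧸ Subgroup.zpowers δ).out = g then (1 : A) else 0).comp
      (MonoidAlgebra.coeffLinearEquiv A).toLinearMap
  have k (u : MonoidAlgebra A G) :
      f ((∑ i ∈ range (orderOf δ), MonoidAlgebra.of A G δ ^ i) * u) = au A G u := by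
    induction u using MonoidAlgebra.induction_linear with
    | zero => simp
    | add x y a b => rw [mul_add, map_add, map_add, a, b]
    | single g a =>
      obtain ⟨⟨_, m⟩, e⟩ := QuotientGroup.mk_out_eq_mul (Subgroup.zpowers δ) g
      obtain ⟨i, hi, rfl⟩ := mem_image.1 (mem_zpowers_iff_mem_range_orderOf.1 m)
      have q (n : ℕ) : ((δ ^ n * g : G) : G ⧸ Subgroup.zpowers δ) = g := by
        rw [mul_comm]; exact QuotientGroup.mk_mul_of_mem _ (Subgroup.npow_mem_zpowers δ n)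
      rw [sum_mul, map_sum, au_single, sum_eq_single i]
      · simp [f, q, e, mul_comm]
      · intro n hn ne
        have : g * δ ^ i ≠ δ ^ n * g := fun a => ne (pow_injOn_Iio_orderOf (mem_range.1 hn)
          (mem_range.1 hi) (mul_right_cancel (a.symm.trans (mul_comm _ _))))
        simp [f, q, e, this]
      · exact fun a => absurd hi a
  rw [← k, h, map_zero]

end alg

variable {l M : ℕ} {P : Ideal (𝓞 Qb)} {g φ τ : GQ}

theorem Hm_le {M' : ℕ} (h : M ∣ M') : Hm M' ≤ Hm M := fun g hg z hz => by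
  obtain ⟨k, rfl⟩ := h
  exact hg z (by rw [pow_mul, hz, one_pow])

theorem Ha_le (h : M ≠ 0) : Ha ≤ Hm M := by
  obtain ⟨k, rfl⟩ := Nat.exists_eq_succ_of_ne_zero h
  exact iInf_le _ k

instance Hm_normal (M : ℕ) : (Hm M).Normal := ⟨fun g hg k z hz => by
  rw [AlgEquiv.mul_apply, AlgEquiv.mul_apply, hg _ (by rw [← map_pow, hz, map_one]),
    ← AlgEquiv.mul_apply, mul_inv_cancel, AlgEquiv.one_apply]⟩

instance Ha_normal : Ha.Normal := Subgroup.normal_iInf_normal fun _ => Hm_normal _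

theorem root_cong (o : Ov l P) (h : ¬ l ∣ M) {a : ℕ} (e : ∀ x : 𝓞 Qb, g • x - x ^ a ∈ P) {z : Qb}
    (hz : z ^ M = 1) : g z = z ^ a := by
  let ζ : 𝓞 Qb := ⟨z, IsIntegral.of_pow (n := M) (Nat.pos_of_ne_zero fun k => h (k ▸ dvd_zero l))
    (hz ▸ isIntegral_one)⟩
  have k : ζ ^ M = 1 := RingOfIntegers.ext hz
  exact congrArg Subtype.val (P022E.GW.Unr.root_inj o.2.1 (m := M)
    (fun m => h (by exact_mod_cast P004S.ov_dvd o (a := M) (by exact_mod_cast m)))
    (by rw [← smul_pow', k, smul_one]) (by rw [← pow_mul, mul_comm, pow_mul, k, one_pow]) (e ζ))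

theorem inert_Hm (o : Ov l P) (h : ¬ l ∣ M) (i : Inert P g) : g ∈ Hm M := fun z hz =>
  (root_cong o h (a := 1) (fun x => by rw [pow_one]; exact i x) hz).trans (pow_one z)

/-- the cyclotomic character -/
theorem ex_cy (M : ℕ) [NeZero M] : ∃ (ζ : Qb) (χ : GQ →* (ZMod M)ˣ), IsPrimitiveRoot ζ M ∧
    (∀ g, g ζ = ζ ^ (χ g : ZMod M).val) ∧ (∀ g, g ∈ Hm M ↔ χ g = 1) ∧
    ∀ g (a : ℕ), g ζ = ζ ^ a → (χ g : ZMod M) = a := by
  obtain ⟨ζ, h⟩ := HasEnoughRootsOfUnity.exists_primitiveRoot Qb M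
  have k g (a : ℕ) (e : g ζ = ζ ^ a) : (h.autToPow ℚ g : ZMod M) = a := by
    rw [← h.autToPow_spec ℚ g, pow_eq_pow_mod a h.pow_eq_one, ← ZMod.val_natCast] at e
    exact ZMod.val_injective M (h.pow_inj (ZMod.val_lt _) (ZMod.val_lt _) e)
  refine ⟨ζ, h.autToPow ℚ, h, fun g => (h.autToPow_spec ℚ g).symm, fun g =>
    ⟨fun m => Units.ext ((k g 1 (by rw [m ζ h.pow_eq_one, pow_one])).trans Nat.cast_one), fun e z hz => ?_⟩, k⟩
  obtain ⟨i, -, rfl⟩ := h.eq_pow_of_pow_eq_one hz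
  rw [map_pow, ← h.autToPow_spec ℚ g, e, Units.val_one, ← Nat.cast_one, ZMod.val_natCast,
    ← pow_eq_pow_mod 1 h.pow_eq_one, pow_one]

theorem Hm_open (h : M ≠ 0) : IsOpen (Hm M : Set GQ) := by
  have := NeZero.mk h
  obtain ⟨ζ, χ, h1, -, h2, h3⟩ := ex_cy M
  exact Subgroup.isOpen_mono (H₁ := MulAction.stabilizer GQ ζ) (fun g hg => (h2 g).2 (Units.ext
    ((h3 g 1 (by rw [pow_one]; exact hg)).trans Nat.cast_one))) (P022E.GW.Kc.stab_open ζ)

theorem nd_two (o : Ov l P) (l2 : l ≠ 2) (n : ℕ) : ¬ l ∣ 2 ^ n := fun h =>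
  l2 ((Nat.prime_dvd_prime_iff_eq o.1 Nat.prime_two).1 (o.1.dvd_of_dvd_pow h))

/-- **the cyclotomic variable** -/
theorem ex_var {A : Type} [CommRing A] (h2 : IsNilpotent (2 : A)) (o : Ov l P) (l2 : l ≠ 2)
    (f : Fb l P φ) {s : A} (hs : IsNilpotent (s - 1)) (t : ℤ) :
    ∃ (k : ℕ) (B : Type) (_ : CommRing B) (j : A →+* B) (e : B →+* A) (γ : GQ →* B),
      (∀ x, e (j x) = x) ∧ (∀ g, e (γ g) = 1) ∧ Cd (2 ^ k) γ ∧ (∀ g, IsNilpotent (γ g - 1)) ∧
      ∀ u, (l - t * (j s * γ φ) + (j s * γ φ) ^ 2) * u = 0 → e u = 0 := by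
  have ol := o.1.odd_of_ne_two l2
  rcases Int.even_or_odd t with ht | ht
  swap
  · refine ⟨0, A, inferInstance, .id A, .id A, 1, fun _ => rfl, fun _ => rfl, fun _ _ => rfl,
      fun _ => by simp, fun u h => (IsUnit.mul_right_eq_zero (unit_of ?_)).1 h⟩
    have a := odd_nil h2 ol.natCast
    have b := nil_mul (odd_nil h2 ht) hs
    have c := nil_mul hs hs
    simp only [RingHom.id_apply, MonoidHom.one_apply, mul_one]
    exact show ((l : ℤ) : A) - 1 - (t * s - 1) + (s * s - 1) = l - t * s + s ^ 2 - 1 by push_cast; ring ▸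
      (Commute.all _ _).isNilpotent_add ((Commute.all _ _).isNilpotent_sub a b) c
  obtain ⟨m, hm⟩ := geom_dvd h2 hs ol ht
  obtain ⟨k, hk⟩ : ∃ k, l ^ 2 ^ m < 2 ^ (k + 1) := ⟨_, Nat.lt_two_pow_self.trans
    (Nat.pow_lt_pow_right one_lt_two (Nat.lt_succ_self _))⟩
  obtain ⟨ζ, χ, h1, -, h3, h4⟩ := ex_cy (2 ^ (k + 1))
  have c (g : (ZMod (2 ^ (k + 1)))ˣ) : g ^ 2 ^ k = 1 := by
    have := pow_card_eq_one (x := g)
    rwa [ZMod.card_units_eq_totient, Nat.totient_prime_pow_succ Nat.prime_two,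
      show 2 - 1 = 1 from rfl, mul_one] at this
  obtain ⟨n, -, hn⟩ := (Nat.dvd_prime_pow Nat.prime_two).1 (orderOf_dvd_of_pow_eq_one (c (χ φ)))
  have le : m ≤ n := by_contra fun a => by
    have := congrArg (fun x : (ZMod (2 ^ (k + 1)))ˣ => (x : ZMod (2 ^ (k + 1))).val)
      (orderOf_dvd_iff_pow_eq_one.1 (hn ▸ pow_dvd_pow 2 (not_le.1 a).le : orderOf (χ φ) ∣ 2 ^ m))
    have : Fact (1 < 2 ^ (k + 1)) := ⟨Nat.one_lt_two_pow k.succ_ne_zero⟩
    simp only [Units.val_pow_eq_pow_val, h4 φ l (root_cong o (nd_two o l2 _) f h1.pow_eq_one),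
      ← Nat.cast_pow, ZMod.val_cast_of_lt hk, Units.val_one, ZMod.val_one] at *
    exact (Nat.one_lt_pow (n := 2 ^ m) (by positivity) o.1.one_lt).ne' ‹_›
  refine ⟨k + 1, MonoidAlgebra A (ZMod (2 ^ (k + 1)))ˣ, inferInstance, algebraMap _ _, au _ _,
    (MonoidAlgebra.of A _).comp χ, fun x => au_single _ _, fun g => au_single _ _,
    fun g hg => by simp [(h3 g).1 hg, MonoidAlgebra.one_def], fun g => nil_of_pow
      (by simpa only [map_ofNat] using h2.map (algebraMap A _)) (k := k)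
      (by rw [MonoidHom.comp_apply, ← map_pow, c, map_one]), fun u h => au_zero (χ φ) ?_⟩
  obtain ⟨r, hr⟩ := hm n le
  have := congrArg (aeval (MonoidAlgebra.of A _ (χ φ))) hr
  simp only [map_sum, map_pow, aeval_X, map_mul, map_add, map_sub, map_natCast, map_intCast,
    aeval_C] at this
  rw [hn, this, mul_right_comm]
  exact mul_eq_zero_of_left h _

/-- the tame character -/
theorem ex_chi {N : ℕ} (o : Ov l P) (t : Gn l P τ) (md : l % 2 ^ (N + 2) = 1) :
    ∃ χ : GQ →* Multiplicative (Zn N), (∀ g ∈ Hm l, χ g = 1) ∧ χ τ = .ofAdd 1 := by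
  have := Fact.mk o.1
  obtain ⟨ζ, χ, h1, h2, h3, -⟩ := ex_cy l
  have d : 2 ^ (N + 2) ∣ l - 1 := (Nat.modEq_iff_dvd' o.1.one_le).1
    (md.trans (Nat.mod_eq_of_lt (Nat.one_lt_two_pow (by omega))).symm).symm
  have m4 : l % 4 = 1 := by
    rw [← Nat.mod_mod_of_dvd _ (show 4 ∣ 2 ^ (N + 2) from ⟨2 ^ N, by ring⟩), md]
  have c2 : ringChar (ZMod l) ≠ 2 := by rw [ZMod.ringChar_zmod_n]; rintro rfl; omega
  have ns : ¬ IsSquare (χ τ : ZMod l) := fun sq => by
    let q := (quadraticChar (ZMod l)).ringHomComp (Int.castRingHom Qb)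
    let ψ := AddChar.zmodChar l h1.pow_eq_one
    have g2 : gaussSum q ψ ^ 2 = l := by
      rw [gaussSum_sq ((MulChar.ringHomComp_ne_one_iff Int.cast_injective).2 (quadraticChar_ne_one c2))
        ((quadraticChar_isQuadratic _).comp _) (AddChar.zmodChar_primitive_of_primitive_root l h1),
        MulChar.ringHomComp_apply, quadraticChar_neg_one c2, ZMod.card, ZMod.χ₄_nat_one_mod_four m4]
      simp
    have g1 : τ (gaussSum q ψ) = gaussSum q ψ := by
      conv_rhs => rw [← gaussSum_mulShift q ψ (χ τ), MulChar.ringHomComp_apply,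
        (quadraticChar_one_iff_isSquare (χ τ).ne_zero).2 sq, map_one, one_mul]
      simp only [gaussSum, map_sum, map_mul, AddChar.mulShift_apply]
      refine sum_congr rfl fun x _ => ?_
      congr 1
      · exact map_intCast τ _
      · rw [AddChar.zmodChar_apply, AddChar.zmodChar_apply, map_pow, h2, ← pow_mul, ZMod.val_mul,
          ← pow_eq_pow_mod _ h1.pow_eq_one]
    rw [t.2 _ g2, neg_eq_self] at g1
    exact o.1.ne_zero (by simpa [g1] using g2.symm)
  obtain ⟨E⟩ : Nonempty (Multiplicative (ZMod (l - 1)) ≃* (ZMod l)ˣ) := by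
    have := zmodCyclicMulEquiv (G := (ZMod l)ˣ) inferInstance
    rw [Nat.card_eq_fintype_card, ZMod.card_units] at this
    exact ⟨this⟩
  have : NeZero (l - 1) := ⟨by have := o.1.one_lt; omega⟩
  obtain ⟨a, ha⟩ := ZMod.natCast_zmod_surjective (E.symm (χ τ)).toAdd
  have oa : Odd a := Nat.not_even_iff_odd.1 fun ⟨b, hb⟩ => ns ⟨E (.ofAdd b), by
    rw [← Units.val_mul, ← map_mul, ← ofAdd_add, ← Nat.cast_add, ← hb, ha, ofAdd_toAdd,
      E.apply_symm_apply]⟩
  obtain ⟨u, hu⟩ := ((ZMod.isUnit_iff_coprime a (2 ^ N)).2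
    (oa.coprime_two_right.pow_right N)).exists_left_inv
  have d' : 2 ^ N ∣ l - 1 := (pow_dvd_pow 2 (by omega)).trans d
  refine ⟨((AddMonoidHom.mulLeft u).comp (ZMod.castHom d' (Zn N)).toAddMonoidHom).toMultiplicative.comp (E.symm.toMonoidHom.comp χ),
    fun g hg => by simp [(h3 g).1 hg], ?_⟩
  exact congrArg Multiplicative.ofAdd (show u * ZMod.castHom d' (Zn N) (E.symm (χ τ)).toAdd = 1 by
    rw [← ha, map_natCast, hu])

end Vale.Agent.P014T.Dr
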