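import Vale.Agent.P004F.Defs

/-! # P014T, block DER: Euler systems over the cyclotomic fields (words and rows; helper7) -/

set_option linter.all false

open NumberField Matrix

noncomputable section

namespace Vale.Agent.P014T.Dr

open Vale.Agent.P022 (Qb GQ IsConj)
open Vale.Agent.P027M.S (Inert)
open Vale.Agent.P022E.GW (Ov Fb Gn)
open Vale.Agent.P004F (M2 Cc)

/-- the group which fixes the roots of unity of order `M` -/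
def Hm (M : ℕ) : Subgroup GQ where
  carrier := {g | ∀ z : Qb, z ^ M = 1 → g z = z}
  mul_mem' {g h} hg hh z hz := by rw [AlgEquiv.mul_apply, hh z hz, hg z hz]
  one_mem' _ _ := rfl
  inv_mem' {g} hg z hz := g.symm_apply_eq.2 (hg z hz).symm

/-- the group which fixes all roots of unity -/
def Ha : Subgroup GQ := ⨅ M : ℕ, Hm (M + 1)

abbrev Zn (N : ℕ) : Type := ZMod (2 ^ N)

section

variable {R : Type} [CommRing R]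

/-- locally constant cocycles of `H` -/
structure Co (H : Subgroup GQ) (a : GQ → M2 R) (y : GQ → Fin 2 → R) : Prop where
  coc : ∀ g ∈ H, ∀ h ∈ H, y (g * h) = y g + a g *ᵥ y h
  lc : ∃ W : Subgroup GQ, IsOpen (W : Set GQ) ∧ ∀ w ∈ W, w ∈ H → y w = 0

/-- the conjugate cocycle -/
def cj (ρ : GQ →* M2 R) (s : GQ) (y : GQ → Fin 2 → R) (g : GQ) : Fin 2 → R := ρ s *ᵥ y (s⁻¹ * g * s)

/-- cohomologous on `H` -/
def Ch (H : Subgroup GQ) (a : GQ → M2 R) (y y' : GQ → Fin 2 → R) : Prop :=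
  ∃ w, ∀ g ∈ H, y g - y' g = a g *ᵥ w - w

end

/-- representatives of `H / H'` -/
def Tv (H H' : Subgroup GQ) (T : Finset GQ) : Prop :=
  (∀ s ∈ T, s ∈ H) ∧ ∀ g ∈ H, ∃! s, s ∈ T ∧ s⁻¹ * g ∈ H'

variable {N : ℕ} (ρ : GQ →* M2 (Zn N)) (S : Finset ℕ) (a : ℕ → ℤ) (Ad : ℕ → Prop)

/-- the representation and the admissible conductors -/
structure Gr : Prop where
  two : 2 ∈ S
  unr : ∀ l P, Ov l P → l ∉ S → ∀ i, Inert P i → ρ i = 1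
  frb : ∀ l P φ, Ov l P → l ∉ S → Fb l P φ → (ρ φ).det = l ∧ (ρ φ).trace = a l
  pos : ∀ M, Ad M → M ≠ 0
  ad2 : ∀ M, Ad M → Ad (M * 2)
  adl : ∀ M l, Ad M → l.Prime → l ∉ S → ¬ l ∣ M → Ad (M * l)

/-- **the raw Euler system**: the relations are only asked on `Ha` -/
structure Raw (y : ℕ → GQ → Fin 2 → Zn N) : Prop where
  co : ∀ M, Ad M → Co (Hm M) ρ (y M)
  two : ∀ M, Ad M → ∃ T, Tv (Hm M) (Hm (M * 2)) T ∧ Ch Ha ρ (∑ s ∈ T, cj ρ s (y (M * 2))) (y M)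
  odd : ∀ M l P φ, Ad M → Ov l P → l ∉ S → ¬ l ∣ M → Fb l P φ → ∃ T, Tv (Hm M) (Hm (M * l)) T ∧
    Ch Ha ρ (l • ∑ s ∈ T, cj ρ s (y (M * l))) (l • y M - a l • cj ρ φ⁻¹ (y M) + cj ρ (φ⁻¹ ^ 2) (y M))

/-- the conductor divides `M` -/
def Cd {A : Type} [CommRing A] (M : ℕ) (Ψ : GQ →* A) : Prop := ∀ g ∈ Hm M, Ψ g = 1

/-- the twisted action -/
def aa {A : Type} [CommRing A] (ι : Zn N →+* A) (Ψ : GQ →* A) (g : GQ) : M2 A := Ψ g • (ρ g).map ι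

/-- families of cochains, one for every character -/
abbrev Fm (N : ℕ) : Type 1 :=
  ℕ → ∀ (A : Type) [CommRing A], (Zn N →+* A) → (GQ →* A) → GQ → Fin 2 → A

/-- **the exact Euler system** -/
structure Eu (z : Fm N) : Prop where
  co : ∀ M (A : Type) [CommRing A] ι Ψ, Ad M → Cd M Ψ → Co ⊤ (aa ρ ι Ψ) (z M A ι Ψ)
  map : ∀ M (A B : Type) [CommRing A] [CommRing B] (f : A →+* B) ι Ψ g i, Ad M →
    f (z M A ι Ψ g i) = z M B (f.comp ι) (f.toMonoidHom.comp Ψ) g i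
  two : ∀ M (A : Type) [CommRing A] ι Ψ, Ad M → Cd M Ψ → z (M * 2) A ι Ψ = z M A ι Ψ
  odd : ∀ M (A : Type) [CommRing A] ι Ψ l P φ, Ad M → Cd M Ψ → Ov l P → l ∉ S → ¬ l ∣ M → Fb l P φ →
    (l : A) • z (M * l) A ι Ψ = (l - a l * Ψ φ + Ψ φ ^ 2) • z M A ι Ψ

/-- the corestriction of the twisted cocycle -/
def cor {A : Type} [CommRing A] (ι : Zn N →+* A) (Ψ : GQ →* A) (H : Subgroup GQ)
    (y : GQ → Fin 2 → Zn N) (g : GQ) : Fin 2 → A :=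
  ∑ᶠ x : GQ ⧸ H, aa ρ ι Ψ x.out *ᵥ (ι ∘ y (x.out⁻¹ * g * (g⁻¹ • x).out))

/-- Kolyvagin primes -/
structure Kp {R : Type} [CommRing R] (ι : Zn N →+* R) (ψ : GQ →* R) (M : ℕ) where
  l : ℕ
  P : Ideal (𝓞 Qb)
  φ : GQ
  τ : GQ
  ov : Ov l P
  fb : Fb l P φ
  gn : Gn l P τ
  out : l ∉ S
  cop : ¬ l ∣ M
  md : l % 2 ^ (N + 2) = 1
  det : (1 - aa ρ ι ψ φ).det = 0

variable {ρ S}

/-- distinct primes -/
def Inj {R : Type} [CommRing R] {ι : Zn N →+* R} {ψ : GQ →* R} {M : ℕ} (n : Finset (Kp ρ S ι ψ M)) :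
    Prop := ∀ k ∈ n, ∀ k' ∈ n, k.l = k'.l → k = k'

open scoped Classical in
/-- **Kolyvagin classes** -/
structure Ks {R : Type} [CommRing R] {ι : Zn N →+* R} {ψ : GQ →* R} {M : ℕ}
    (κ : Finset (Kp ρ S ι ψ M) → GQ → Fin 2 → R) : Prop where
  cc : ∀ n, Inj n → Cc ⊤ (S ∪ M.primeFactors ∪ n.image (·.l)) (aa ρ ι ψ) (κ n)
  fs : ∀ n k, k ∉ n → Inj (insert k n) →
    κ (insert k n) k.τ = -((1 - aa ρ ι ψ k.φ).adjugate *ᵥ κ n k.φ)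

/-- from the raw to the exact Euler system -/
def SHP : Prop := ∀ (N : ℕ) (ρ : GQ →* M2 (Zn N)) S a Ad y, Gr ρ S a Ad → Raw ρ S a Ad y →
  ∀ g₀ ∈ Ha, ∃ z, Eu ρ S a Ad z ∧ ∀ M (A : Type) [CommRing A] ι Ψ, Ad M → Cd M Ψ →
    Co ⊤ (aa ρ ι Ψ) (cor ρ ι Ψ (Hm M) (y M)) ∧
    Ch ⊤ (aa ρ ι Ψ) (z M A ι Ψ) (ι (ρ g₀ - 1).det ^ 2 • cor ρ ι Ψ (Hm M) (y M)) ∧
    ∀ T, Tv ⊤ (Hm M) T → Ch (Hm M) (aa ρ ι Ψ) (cor ρ ι Ψ (Hm M) (y M))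
      fun g => ∑ s ∈ T, Ψ s • (ι ∘ cj ρ s (y M) g)

/-- the classes are unramified, in the strong sense -/
def UNR : Prop := ∀ (N : ℕ) (ρ : GQ →* M2 (Zn N)) S a Ad z, Gr ρ S a Ad → Eu ρ S a Ad z →
  ∀ M (A : Type) [CommRing A] ι (Ψ : GQ →* A), Ad M → Cd M Ψ → (∀ g, IsNilpotent (Ψ g - 1)) →
  ∀ l P i, Ov l P → l ∉ S → Inert P i → Ψ i = 1 → z M A ι Ψ i = 0

/-- the derivative classes; the second family vanishes at the complex conjugation -/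
def KOL : Prop := ∀ (N : ℕ) (ρ : GQ →* M2 (Zn N)) S a Ad z, Gr ρ S a Ad → Eu ρ S a Ad z →
  ∀ M (R : Type) [CommRing R] ι (ψ : GQ →* R), Ad M → Cd M ψ → (∀ g, IsNilpotent (ψ g - 1)) →
  (∃ κ : Finset (Kp ρ S ι ψ M) → GQ → Fin 2 → R, Ks κ ∧ κ ∅ = z M R ι ψ) ∧
  ∀ c, IsConj c → ∃ κ : Finset (Kp ρ S ι ψ M) → GQ → Fin 2 → R, Ks κ ∧ (∀ n, Inj n → κ n c = 0) ∧
    Ch ⊤ (aa ρ ι ψ) (κ ∅) (2 • z M R ι ψ)

end Vale.Agent.P014T.Dr
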